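import Mathlib
import Vale.Agent.Lib.P058.Defs

/-!
# P058, piece J5a: the dihedral orbit is homogeneous

The maps `w ↦ z * w` and `w ↦ z * conj w` with `z ^ n = 1` are real linear isometries of the
complex plane, they map the dihedral orbit `Dorb n a` onto itself, and they act transitively
on it.
-/

namespace Vale.Agent.Lib.P058.H4

open Vale.Agent.Lib.P058

/-- An `n`-th root of unity (`n > 0`) has norm one. -/
theorem norm_eq_one_of_pow {n : ℕ} (hn : 0 < n) {z : ℂ} (hz : z ^ n = 1) : ‖z‖ = 1 := by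
  have h : ‖z‖ ^ n = 1 := by rw [← norm_pow, hz, norm_one]
  exact (pow_eq_one_iff_of_nonneg (norm_nonneg z) hn.ne').mp h

/-- A root of unity times its conjugate is one. -/
theorem mul_conj_of_pow {n : ℕ} (hn : 0 < n) {z : ℂ} (hz : z ^ n = 1) :
    z * (starRingEnd ℂ) z = 1 := by
  rw [Complex.mul_conj, Complex.normSq_eq_norm_sq, norm_eq_one_of_pow hn hz]
  simp

/-- A root of unity is not zero. -/
theorem ne_zero_of_pow {n : ℕ} (hn : 0 < n) {z : ℂ} (hz : z ^ n = 1) : z ≠ 0 := by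
  intro h0
  rw [h0, zero_pow hn.ne'] at hz
  exact zero_ne_one hz

/-- Multiplication by a root of unity maps the orbit into itself. -/
theorem mul_mem_Dorb {n : ℕ} (a : ℂ) {z : ℂ} (hz : z ^ n = 1) {w : ℂ} (hw : w ∈ Dorb n a) :
    z * w ∈ Dorb n a := by
  obtain ⟨y, hy, h | h⟩ := hw
  · exact ⟨z * y, by rw [mul_pow, hz, hy, one_mul], Or.inl (by rw [h, mul_assoc])⟩
  · exact ⟨z * y, by rw [mul_pow, hz, hy, one_mul], Or.inr (by rw [h, mul_assoc])⟩

/-- Conjugation followed by multiplication by a root of unity maps the orbit into itself. -/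
theorem mul_conj_mem_Dorb {n : ℕ} (a : ℂ) {z : ℂ} (hz : z ^ n = 1) {w : ℂ}
    (hw : w ∈ Dorb n a) : z * (starRingEnd ℂ) w ∈ Dorb n a := by
  obtain ⟨y, hy, h | h⟩ := hw
  · refine ⟨z * (starRingEnd ℂ) y, ?_, Or.inr ?_⟩
    · rw [mul_pow, hz, ← map_pow, hy, map_one, one_mul]
    · rw [h, map_mul, mul_assoc]
  · refine ⟨z * (starRingEnd ℂ) y, ?_, Or.inl ?_⟩
    · rw [mul_pow, hz, ← map_pow, hy, map_one, one_mul]
    · rw [h, map_mul, Complex.conj_conj, mul_assoc]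

/-- The rotation `w ↦ z * w` for a root of unity `z`, with its action on the orbit. -/
theorem exists_rot {n : ℕ} (hn : 0 < n) (a : ℂ) {z : ℂ} (hz : z ^ n = 1) :
    ∃ σ : ℂ ≃ₗᵢ[ℝ] ℂ, (∀ w, σ w = z * w) ∧ (∀ w ∈ Dorb n a, σ w ∈ Dorb n a) ∧
      (∀ w ∈ Dorb n a, σ.symm w ∈ Dorb n a) := by
  have hnorm : ‖z‖ = 1 := norm_eq_one_of_pow hn hz
  have hz0 : z ≠ 0 := ne_zero_of_pow hn hz
  have hzi : z⁻¹ ^ n = 1 := by rw [inv_pow, hz, inv_one]
  let c : Circle := ⟨z, mem_sphere_zero_iff_norm.2 hnorm⟩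
  have hσ : ∀ w, rotation c w = z * w := fun w => rfl
  refine ⟨rotation c, hσ, fun w hw => ?_, fun w hw => ?_⟩
  · rw [hσ]
    exact mul_mem_Dorb a hz hw
  · have hsymm : (rotation c).symm w = z⁻¹ * w := by
      rw [LinearIsometryEquiv.symm_apply_eq, hσ, mul_inv_cancel_left₀ hz0]
    rw [hsymm]
    exact mul_mem_Dorb a hzi hw

/-- The reflection `w ↦ z * conj w` for a root of unity `z`, with its action on the orbit. -/
theorem exists_refl {n : ℕ} (hn : 0 < n) (a : ℂ) {z : ℂ} (hz : z ^ n = 1) :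
    ∃ σ : ℂ ≃ₗᵢ[ℝ] ℂ, (∀ w, σ w = z * (starRingEnd ℂ) w) ∧
      (∀ w ∈ Dorb n a, σ w ∈ Dorb n a) ∧ (∀ w ∈ Dorb n a, σ.symm w ∈ Dorb n a) := by
  have hnorm : ‖z‖ = 1 := norm_eq_one_of_pow hn hz
  have hzz : z * (starRingEnd ℂ) z = 1 := mul_conj_of_pow hn hz
  let c : Circle := ⟨z, mem_sphere_zero_iff_norm.2 hnorm⟩
  have hσ : ∀ w, (Complex.conjLIE.trans (rotation c)) w = z * (starRingEnd ℂ) w := fun w => rfl
  refine ⟨Complex.conjLIE.trans (rotation c), hσ, fun w hw => ?_, fun w hw => ?_⟩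
  · rw [hσ]
    exact mul_conj_mem_Dorb a hz hw
  · have hsymm : (Complex.conjLIE.trans (rotation c)).symm w = z * (starRingEnd ℂ) w := by
      rw [LinearIsometryEquiv.symm_apply_eq, hσ, map_mul, Complex.conj_conj, ← mul_assoc, hzz,
        one_mul]
    rw [hsymm]
    exact mul_conj_mem_Dorb a hz hw

/-- Rotations by `n`-th roots of unity and reflections act transitively on the dihedral orbit:
any point of `Dorb n a` is carried to any other by a real linear isometry of the complex plane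
that maps the orbit onto itself. -/
theorem Dorb_trans (n : ℕ) (hn : 0 < n) (a : ℂ) {u v : ℂ} (hu : u ∈ Dorb n a) (hv : v ∈ Dorb n a) :
    ∃ σ : ℂ ≃ₗᵢ[ℝ] ℂ, σ u = v ∧ (∀ w ∈ Dorb n a, σ w ∈ Dorb n a) ∧
      (∀ w ∈ Dorb n a, σ.symm w ∈ Dorb n a) := by
  obtain ⟨y, hy, hu' | hu'⟩ := hu <;> obtain ⟨y', hy', hv' | hv'⟩ := hv
  · -- `u = y a`, `v = y' a`: rotation by `y' / y`
    have hy0 : y ≠ 0 := ne_zero_of_pow hn hy
    have hq : (y' * y⁻¹) ^ n = 1 := by rw [mul_pow, inv_pow, hy, hy', inv_one, one_mul]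
    obtain ⟨σ, hσ, h1, h2⟩ := exists_rot hn a hq
    refine ⟨σ, ?_, h1, h2⟩
    rw [hσ, hu', hv', mul_assoc, inv_mul_cancel_left₀ hy0]
  · -- `u = y a`, `v = y' conj a`: reflection with `y' y`
    have hq : (y' * y) ^ n = 1 := by rw [mul_pow, hy, hy', one_mul]
    obtain ⟨σ, hσ, h1, h2⟩ := exists_refl hn a hq
    refine ⟨σ, ?_, h1, h2⟩
    rw [hσ, hu', hv', map_mul, mul_assoc, ← mul_assoc y, mul_conj_of_pow hn hy, one_mul]
  · -- `u = y conj a`, `v = y' a`: reflection with `y' y`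
    have hq : (y' * y) ^ n = 1 := by rw [mul_pow, hy, hy', one_mul]
    obtain ⟨σ, hσ, h1, h2⟩ := exists_refl hn a hq
    refine ⟨σ, ?_, h1, h2⟩
    rw [hσ, hu', hv', map_mul, Complex.conj_conj, mul_assoc, ← mul_assoc y,
      mul_conj_of_pow hn hy, one_mul]
  · -- `u = y conj a`, `v = y' conj a`: rotation by `y' / y`
    have hy0 : y ≠ 0 := ne_zero_of_pow hn hy
    have hq : (y' * y⁻¹) ^ n = 1 := by rw [mul_pow, inv_pow, hy, hy', inv_one, one_mul]
    obtain ⟨σ, hσ, h1, h2⟩ := exists_rot hn a hq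
    refine ⟨σ, ?_, h1, h2⟩
    rw [hσ, hu', hv', mul_assoc, inv_mul_cancel_left₀ hy0]

end Vale.Agent.Lib.P058.H4
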